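import Mathlib

/-!
P227/M, tool: for Lipschitz `W`, `Φ` (`Φ` with compact support), mixed products of first derivatives
can be exchanged: `∫ ∂_a W ∂_e Φ = ∫ ∂_e W ∂_a Φ` (no mollification).
-/

open MeasureTheory Metric Set Filter Topology Measure
open scoped NNReal

namespace Vale.Agent.P227.M.Tool

variable {E : Type*} [NormedAddCommGroup E] [NormedSpace ℝ E] [FiniteDimensional ℝ E]
  [MeasurableSpace E] [BorelSpace E] {μ : Measure E} [IsAddHaarMeasure μ]
  {C D : ℝ≥0} {W Φ : E → ℝ}

/-- difference quotients of a compactly supported Lipschitz function against a bounded function -/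
theorem tendsto_quot_mul_of_bdd {f g : E → ℝ} (hf : LipschitzWith C f) (h'f : HasCompactSupport f)
    (hg : AEStronglyMeasurable g μ) {B : ℝ} (hB : ∀ x, ‖g x‖ ≤ B) (v : E) :
    Tendsto (fun t : ℝ ↦ ∫ x, (t⁻¹ • (f (x + t • v) - f x)) * g x ∂μ) (𝓝[>] 0)
      (𝓝 (∫ x, lineDeriv ℝ f x v * g x ∂μ)) := by
  let K := cthickening (‖v‖) (tsupport f)
  have K_compact : IsCompact K := IsCompact.cthickening h'f
  have hgK : Integrable (K.indicator g) μ := by
    rw [integrable_indicator_iff K_compact.measurableSet]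
    exact Measure.integrableOn_of_bounded K_compact.measure_lt_top.ne hg
      (Eventually.of_forall hB)
  have key := hf.integral_inv_smul_sub_mul_tendsto_integral_lineDeriv_mul hgK v
  have hlim : ∫ x, lineDeriv ℝ f x v * K.indicator g x ∂μ = ∫ x, lineDeriv ℝ f x v * g x ∂μ := by
    refine integral_congr_ae (Eventually.of_forall fun x => ?_)
    by_cases hx : x ∈ K
    · simp [indicator_of_mem hx]
    · have hx' : x ∉ tsupport f := fun h => hx (self_subset_cthickening _ h)
      have h0 : lineDeriv ℝ f x v = 0 := by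
        have : (fun t : ℝ => f (x + t • v)) =ᶠ[𝓝 0] fun _ => 0 := by
          have ho : IsOpen ((tsupport f)ᶜ) := (isClosed_tsupport f).isOpen_compl
          have hcont : Continuous fun t : ℝ => x + t • v := by fun_prop
          have : ∀ᶠ t in 𝓝 (0 : ℝ), x + t • v ∈ (tsupport f)ᶜ := by
            apply hcont.continuousAt.eventually_mem
            apply ho.mem_nhds
            simpa using hx'
          filter_upwards [this] with t ht
          exact image_eq_zero_of_notMem_tsupport ht
        rw [lineDeriv, this.deriv_eq]; simp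
      simp [h0]
  rw [hlim] at key
  refine key.congr' ?_
  filter_upwards [Ioc_mem_nhdsGT zero_lt_one] with t ht
  refine integral_congr_ae (Eventually.of_forall fun x => ?_)
  have t_pos : 0 < t := ht.1
  by_cases hx : x ∈ K
  · simp [indicator_of_mem hx]
  · have A : f x = 0 := by
      rw [← Function.notMem_support]
      contrapose hx
      exact self_subset_cthickening _ (subset_tsupport _ hx)
    have B' : f (x + t • v) = 0 := by
      rw [← Function.notMem_support]
      contrapose hx
      apply mem_cthickening_of_dist_le _ _ (‖v‖) (tsupport f) (subset_tsupport _ hx)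
      simp only [dist_eq_norm, sub_add_cancel_left, norm_neg, norm_smul, Real.norm_eq_abs,
        abs_of_nonneg t_pos.le]
      exact mul_le_of_le_one_left (norm_nonneg v) ht.2
    simp [A, B']

omit [FiniteDimensional ℝ E] [MeasurableSpace E] [BorelSpace E] in
theorem norm_lineDeriv_le' (hW : LipschitzWith C W) (a x : E) : ‖lineDeriv ℝ W x a‖ ≤ C * ‖a‖ := by
  have := norm_lineDeriv_le_of_lip' (𝕜 := ℝ) (f := W) (x₀ := x) (C := (C : ℝ)) (v := a) C.coe_nonneg
    (Eventually.of_forall fun y => hW.norm_sub_le y x)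
  simpa using this

/-- **swap**: `∫ ∂_a W ∂_e Φ = ∫ ∂_e W ∂_a Φ`. -/
theorem swap_lineDeriv (hW : LipschitzWith C W) (hP : LipschitzWith D Φ) (hc : HasCompactSupport Φ)
    (a e : E) :
    ∫ x, lineDeriv ℝ W x a * lineDeriv ℝ Φ x e ∂μ = ∫ x, lineDeriv ℝ W x e * lineDeriv ℝ Φ x a ∂μ := by
  -- integrability of `lineDeriv Φ`
  have hmeasW : ∀ v, AEStronglyMeasurable (fun x => lineDeriv ℝ W x v) μ := fun v =>
    (aemeasurable_lineDeriv hW.continuous μ).aestronglyMeasurable
  have hmeasP : ∀ v, AEStronglyMeasurable (fun x => lineDeriv ℝ Φ x v) μ := fun v =>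
    (aemeasurable_lineDeriv hP.continuous μ).aestronglyMeasurable
  have hsupp : ∀ v x, x ∉ tsupport Φ → lineDeriv ℝ Φ x v = 0 := by
    intro v x hx'
    have : (fun t : ℝ => Φ (x + t • v)) =ᶠ[𝓝 0] fun _ => 0 := by
      have ho : IsOpen ((tsupport Φ)ᶜ) := (isClosed_tsupport Φ).isOpen_compl
      have hcont : Continuous fun t : ℝ => x + t • v := by fun_prop
      have : ∀ᶠ t in 𝓝 (0 : ℝ), x + t • v ∈ (tsupport Φ)ᶜ := by
        apply hcont.continuousAt.eventually_mem
        apply ho.mem_nhds
        simpa using hx'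
      filter_upwards [this] with t ht
      exact image_eq_zero_of_notMem_tsupport ht
    rw [lineDeriv, this.deriv_eq]; simp
  have hintP : ∀ v, Integrable (fun x => lineDeriv ℝ Φ x v) μ := by
    intro v
    have h1 : IntegrableOn (fun x => lineDeriv ℝ Φ x v) (tsupport Φ) μ :=
      Measure.integrableOn_of_bounded hc.measure_lt_top.ne (hmeasP v)
        (Eventually.of_forall fun x => norm_lineDeriv_le' hP v x)
    exact (integrableOn_iff_integrable_of_support_subset (fun x hx => by
      by_contra h; exact hx (hsupp v x h))).1 h1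
  -- quotient function
  have hq : ∀ t : ℝ, ∃ C', LipschitzWith C' fun x => t⁻¹ • (W (x + t • a) - W x) := by
    intro t
    have h1 : LipschitzWith C fun x => W (x + t • a) := by
      have := hW.comp (isometry_add_right (t • a)).lipschitz
      simpa [Function.comp_def] using this
    have h2 := (h1.sub hW)
    have h3 := (lipschitzWith_smul (t⁻¹ : ℝ) (β := ℝ)).comp h2
    exact ⟨_, h3⟩
  -- step 1 : for every `t`, integrate by parts
  have S1 : ∀ t : ℝ, ∫ x, (t⁻¹ • (W (x + t • a) - W x)) * lineDeriv ℝ Φ x (-e) ∂μ =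
      ∫ x, (t⁻¹ • (Φ (x + t • (-a)) - Φ x)) * lineDeriv ℝ W x e ∂μ := by
    intro t
    obtain ⟨C', hC'⟩ := hq t
    have h1 := hC'.integral_lineDeriv_mul_eq (μ := μ) hP hc e
    have h2 : ∫ x, (t⁻¹ • (W (x + t • a) - W x)) * lineDeriv ℝ Φ x (-e) ∂μ =
        ∫ x, lineDeriv ℝ (fun x => t⁻¹ • (W (x + t • a) - W x)) x e * Φ x ∂μ := by
      rw [h1]; exact integral_congr_ae (Eventually.of_forall fun x => mul_comm _ _)
    rw [h2]
    -- a.e. formula for the derivative of the quotient
    have hd : ∀ᵐ x ∂μ, DifferentiableAt ℝ W x := hW.ae_differentiableAt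
    have hd' : ∀ᵐ x ∂μ, DifferentiableAt ℝ W (x + t • a) := by
      have : QuasiMeasurePreserving (fun x : E => x + t • a) μ μ :=
        (measurePreserving_add_right μ (t • a)).quasiMeasurePreserving
      exact this.ae hd
    have h3 : ∫ x, lineDeriv ℝ (fun x => t⁻¹ • (W (x + t • a) - W x)) x e * Φ x ∂μ =
        ∫ x, (t⁻¹ * (lineDeriv ℝ W (x + t • a) e - lineDeriv ℝ W x e)) * Φ x ∂μ := by
      refine integral_congr_ae ?_
      filter_upwards [hd, hd'] with x hx hx'
      have e1 : HasFDerivAt (fun x => W (x + t • a)) (fderiv ℝ W (x + t • a)) x := by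
        have := hx'.hasFDerivAt.comp x ((hasFDerivAt_id x).add_const (t • a))
        simpa [Function.comp_def] using this
      have e2 : HasFDerivAt (fun x => t⁻¹ • (W (x + t • a) - W x))
          (t⁻¹ • (fderiv ℝ W (x + t • a) - fderiv ℝ W x)) x :=
        (e1.sub hx.hasFDerivAt).const_smul t⁻¹
      have e3 : lineDeriv ℝ (fun x => t⁻¹ • (W (x + t • a) - W x)) x e =
          t⁻¹ * (lineDeriv ℝ W (x + t • a) e - lineDeriv ℝ W x e) := by
        rw [(e2.hasLineDerivAt e).lineDeriv, (hx'.hasFDerivAt.hasLineDerivAt e).lineDeriv,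
          (hx.hasFDerivAt.hasLineDerivAt e).lineDeriv]
        simp
      show lineDeriv ℝ (fun x => t⁻¹ • (W (x + t • a) - W x)) x e * Φ x = _
      rw [e3]
    rw [h3]
    -- translate
    have i1 : Integrable (fun x => lineDeriv ℝ W (x + t • a) e * Φ x) μ := by
      refine (hP.continuous.integrable_of_hasCompactSupport hc).bdd_mul (c := C * ‖e‖) ?_ ?_
      · exact (hmeasW e).comp_quasiMeasurePreserving
          (measurePreserving_add_right μ (t • a)).quasiMeasurePreserving
      · exact Eventually.of_forall fun x => norm_lineDeriv_le' hW e _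
    have i2 : Integrable (fun x => lineDeriv ℝ W x e * Φ x) μ := by
      refine (hP.continuous.integrable_of_hasCompactSupport hc).bdd_mul (c := C * ‖e‖) (hmeasW e) ?_
      exact Eventually.of_forall fun x => norm_lineDeriv_le' hW e _
    have hc' : HasCompactSupport fun x => Φ (x + t • (-a)) :=
      hc.comp_homeomorph (Homeomorph.addRight (t • (-a)))
    have hcont' : Continuous fun x => Φ (x + t • (-a)) :=
      hP.continuous.comp (continuous_add_const _)
    have i3 : Integrable (fun x => lineDeriv ℝ W x e * Φ (x + t • (-a))) μ := by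
      refine (hcont'.integrable_of_hasCompactSupport hc').bdd_mul (c := C * ‖e‖) (hmeasW e) ?_
      exact Eventually.of_forall fun x => norm_lineDeriv_le' hW e _
    have S3 : ∫ x, lineDeriv ℝ W (x + t • a) e * Φ x ∂μ =
        ∫ x, lineDeriv ℝ W x e * Φ (x + t • (-a)) ∂μ := by
      rw [← integral_add_right_eq_self (fun x => lineDeriv ℝ W x e * Φ (x + t • (-a))) (t • a)]
      simp
    calc ∫ x, (t⁻¹ * (lineDeriv ℝ W (x + t • a) e - lineDeriv ℝ W x e)) * Φ x ∂μ
        = t⁻¹ * (∫ x, lineDeriv ℝ W (x + t • a) e * Φ x ∂μ - ∫ x, lineDeriv ℝ W x e * Φ x ∂μ) := by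
          rw [← integral_sub i1 i2, ← integral_const_mul]
          exact integral_congr_ae (Eventually.of_forall fun x => by ring)
      _ = t⁻¹ * (∫ x, lineDeriv ℝ W x e * Φ (x + t • (-a)) ∂μ -
            ∫ x, lineDeriv ℝ W x e * Φ x ∂μ) := by rw [S3]
      _ = ∫ x, (t⁻¹ • (Φ (x + t • (-a)) - Φ x)) * lineDeriv ℝ W x e ∂μ := by
          rw [← integral_sub i3 i2, ← integral_const_mul]
          refine integral_congr_ae (Eventually.of_forall fun x => ?_)
          simp only [smul_eq_mul]; ring
  -- limits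
  have L1 := hW.integral_inv_smul_sub_mul_tendsto_integral_lineDeriv_mul (hintP (-e)) a
  have L2 := tendsto_quot_mul_of_bdd (μ := μ) hP hc (hmeasW e) (norm_lineDeriv_le' hW e) (-a)
  simp only [S1] at L1
  have := tendsto_nhds_unique L1 L2
  simp only [lineDeriv_neg, mul_neg, neg_mul, integral_neg, neg_inj] at this
  rw [this]
  exact integral_congr_ae (Eventually.of_forall fun x => mul_comm _ _)

/-- the same with Fréchet derivatives -/
theorem swap_fderiv (hW : LipschitzWith C W) (hP : LipschitzWith D Φ) (hc : HasCompactSupport Φ)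
    (a e : E) :
    ∫ x, fderiv ℝ W x a * fderiv ℝ Φ x e ∂μ = ∫ x, fderiv ℝ W x e * fderiv ℝ Φ x a ∂μ := by
  have h := swap_lineDeriv (μ := μ) hW hP hc a e
  have hd1 : ∀ᵐ x ∂μ, DifferentiableAt ℝ W x := hW.ae_differentiableAt
  have hd2 : ∀ᵐ x ∂μ, DifferentiableAt ℝ Φ x := hP.ae_differentiableAt
  have e1 : ∫ x, fderiv ℝ W x a * fderiv ℝ Φ x e ∂μ =
      ∫ x, lineDeriv ℝ W x a * lineDeriv ℝ Φ x e ∂μ := by
    refine integral_congr_ae ?_
    filter_upwards [hd1, hd2] with x h1 h2
    rw [h1.lineDeriv_eq_fderiv, h2.lineDeriv_eq_fderiv]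
  have e2 : ∫ x, fderiv ℝ W x e * fderiv ℝ Φ x a ∂μ =
      ∫ x, lineDeriv ℝ W x e * lineDeriv ℝ Φ x a ∂μ := by
    refine integral_congr_ae ?_
    filter_upwards [hd1, hd2] with x h1 h2
    rw [h1.lineDeriv_eq_fderiv, h2.lineDeriv_eq_fderiv]
  rw [e1, e2, h]

end Vale.Agent.P227.M.Tool
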