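import Mathlib

/-! # P227/M, tool: Arzela-Ascoli for sequences of functions between finite dimensional spaces
(locally uniformly bounded, locally equi-Lipschitz), in the C^0, C^1 and C^2 versions. -/

open Filter Topology Set

namespace Vale.Agent.P227.M.Tool

theorem tlu_tendsto {X Y ι : Type*} [TopologicalSpace X] [UniformSpace Y] {u : ι → X → Y}
    {v : X → Y} {l : Filter ι} (h : TendstoLocallyUniformly u v l) (x : X) :
    Tendsto (fun n => u n x) l (𝓝 (v x)) :=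
  (tendstoLocallyUniformlyOn_univ.2 h).tendsto_at (mem_univ x)

set_option linter.unusedSectionVars false

section AA0

variable {E F : Type*} [NormedAddCommGroup E] [NormedSpace ℝ E] [FiniteDimensional ℝ E]
  [NormedAddCommGroup F] [NormedSpace ℝ F] [FiniteDimensional ℝ F]

/-- The functions bounded by `C R` and Lipschitz with constant `K R` on the ball of radius `R`,
for every natural number `R`. -/
def aaSet (E F : Type*) [NormedAddCommGroup E] [NormedAddCommGroup F] (C K : ℕ → ℝ) :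
    Set (E → F) :=
  {g | (∀ (R : ℕ) (x : E), ‖x‖ ≤ R → ‖g x‖ ≤ C R) ∧
    ∀ (R : ℕ) (x y : E), ‖x‖ ≤ R → ‖y‖ ≤ R → ‖g x - g y‖ ≤ K R * ‖x - y‖}

theorem aaSet_continuous {C K : ℕ → ℝ} {g : E → F} (hg : g ∈ aaSet E F C K) : Continuous g := by
  rw [continuous_iff_continuousAt]
  intro x
  obtain ⟨R, hR⟩ := exists_nat_gt (‖x‖ + 1)
  rw [ContinuousAt, tendsto_iff_norm_sub_tendsto_zero]
  have h1 : ∀ᶠ y in 𝓝 x, ‖g y - g x‖ ≤ |K R| * ‖y - x‖ := by
    filter_upwards [Metric.ball_mem_nhds x one_pos] with y hy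
    have h2 : ‖y - x‖ < 1 := by rwa [← dist_eq_norm]
    have h3 : ‖y‖ ≤ R := by
      have : ‖y‖ ≤ ‖y - x‖ + ‖x‖ := norm_le_norm_sub_add y x
      linarith
    have h4 : ‖x‖ ≤ R := by linarith
    refine (hg.2 R y x h3 h4).trans ?_
    exact mul_le_mul_of_nonneg_right (le_abs_self _) (norm_nonneg _)
  have h5 : Tendsto (fun y => |K R| * ‖y - x‖) (𝓝 x) (𝓝 0) := by
    have : Tendsto (fun y => |K R| * ‖y - x‖) (𝓝 x) (𝓝 (|K R| * ‖x - x‖)) :=
      ((continuous_const.mul ((continuous_id.sub continuous_const).norm)).tendsto x)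
    simpa using this
  exact squeeze_zero' (Eventually.of_forall fun _ => norm_nonneg _) h1 h5

theorem isCompact_aaSet (C K : ℕ → ℝ) : IsCompact (aaSet E F C K) := by
  classical
  have hpi : IsCompact {g : E → F | ∀ x, g x ∈ Metric.closedBall (0 : F) (C ⌈‖x‖⌉₊)} :=
    isCompact_pi_infinite fun x => isCompact_closedBall _ _
  refine IsCompact.of_isClosed_subset hpi ?_ ?_
  · have e : aaSet E F C K =
        (⋂ (R : ℕ) (x : E) (_ : ‖x‖ ≤ R), {g : E → F | ‖g x‖ ≤ C R}) ∩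
        (⋂ (R : ℕ) (x : E) (y : E) (_ : ‖x‖ ≤ R) (_ : ‖y‖ ≤ R),
          {g : E → F | ‖g x - g y‖ ≤ K R * ‖x - y‖}) := by
      ext g
      simp [aaSet]
    rw [e]
    refine IsClosed.inter ?_ ?_
    · refine isClosed_iInter fun R => isClosed_iInter fun x => isClosed_iInter fun _ => ?_
      exact isClosed_le (continuous_apply x).norm continuous_const
    · refine isClosed_iInter fun R => isClosed_iInter fun x => isClosed_iInter fun y =>
        isClosed_iInter fun _ => isClosed_iInter fun _ => ?_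
      exact isClosed_le ((continuous_apply x).sub (continuous_apply y)).norm continuous_const
  · intro g hg x
    simp only [Metric.mem_closedBall, dist_zero_right]
    exact hg.1 _ x (Nat.le_ceil _)

/-- **Arzela-Ascoli, C^0 version.** -/
theorem exists_subseq_C0 (f : ℕ → E → F)
    (hb : ∀ R : ℕ, ∃ C : ℝ, ∀ n (x : E), ‖x‖ ≤ R → ‖f n x‖ ≤ C)
    (hl : ∀ R : ℕ, ∃ K : ℝ, ∀ n (x y : E), ‖x‖ ≤ R → ‖y‖ ≤ R → ‖f n x - f n y‖ ≤ K * ‖x - y‖) :
    ∃ (s : ℕ → ℕ) (g : E → F), StrictMono s ∧ Continuous g ∧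
      TendstoLocallyUniformly (fun n => f (s n)) g atTop ∧
      (∀ x, Tendsto (fun n => f (s n) x) atTop (𝓝 (g x))) := by
  classical
  choose C hC using hb
  choose K hK using hl
  have hmem : ∀ n, f n ∈ aaSet E F C K := fun n => ⟨fun R x hx => hC R n x hx,
    fun R x y hx hy => hK R n x y hx hy⟩
  let S : Set C(E, F) := {g | (g : E → F) ∈ aaSet E F C K}
  have hS : IsCompact S := by
    refine ArzelaAscoli.isCompact_of_equicontinuous S ?_ ?_
    · have : ContinuousMap.toFun '' S = aaSet E F C K := by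
        ext g
        constructor
        · rintro ⟨h, hh, rfl⟩
          exact hh
        · intro hg
          exact ⟨⟨g, aaSet_continuous hg⟩, hg, rfl⟩
      rw [this]
      exact isCompact_aaSet C K
    · intro x
      rw [Metric.equicontinuousAt_iff]
      intro ε hε
      obtain ⟨R, hR⟩ := exists_nat_gt (‖x‖ + 1)
      refine ⟨min 1 (ε / (|K R| + 1)), by positivity, ?_⟩
      rintro y hy ⟨g, hg⟩
      have hy1 : dist y x < 1 := lt_of_lt_of_le hy (min_le_left _ _)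
      have hy2 : dist y x < ε / (|K R| + 1) := lt_of_lt_of_le hy (min_le_right _ _)
      have h2 : ‖y - x‖ < 1 := by rwa [← dist_eq_norm]
      have h3 : ‖y‖ ≤ R := by
        have : ‖y‖ ≤ ‖y - x‖ + ‖x‖ := norm_le_norm_sub_add y x
        linarith
      have h4 : ‖x‖ ≤ R := by linarith
      have h5 := hg.2 R x y h4 h3
      rw [dist_eq_norm]
      have h6 : ‖x - y‖ < ε / (|K R| + 1) := by
        rw [← dist_eq_norm, dist_comm]; exact hy2
      have h7 : (|K R| + 1) * ‖x - y‖ < ε := by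
        rw [lt_div_iff₀ (by positivity)] at h6
        linarith
      have h8 : K R * ‖x - y‖ ≤ (|K R| + 1) * ‖x - y‖ :=
        mul_le_mul_of_nonneg_right (by linarith [le_abs_self (K R)]) (norm_nonneg _)
      calc ‖(g : E → F) x - (g : E → F) y‖ ≤ K R * ‖x - y‖ := h5
        _ ≤ (|K R| + 1) * ‖x - y‖ := h8
        _ < ε := h7
  let fc : ℕ → C(E, F) := fun n => ⟨f n, aaSet_continuous (hmem n)⟩
  have hfc : ∀ n, fc n ∈ S := fun n => hmem n
  obtain ⟨g, -, s, hs, hlim⟩ := hS.tendsto_subseq hfc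
  have hlim' : TendstoLocallyUniformly (fun n => f (s n)) g atTop := by
    have := (ContinuousMap.tendsto_iff_tendstoLocallyUniformly).1 hlim
    exact this
  exact ⟨s, g, hs, g.continuous, hlim', fun x => tlu_tendsto hlim' x⟩

end AA0

section AA2

variable {E F : Type*} [NormedAddCommGroup E] [NormedSpace ℝ E] [FiniteDimensional ℝ E]
  [NormedAddCommGroup F] [NormedSpace ℝ F] [FiniteDimensional ℝ F]

theorem lipschitz_of_fderiv_le {G : Type*} [NormedAddCommGroup G] [NormedSpace ℝ G]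
    {f : E → G} {R C : ℝ} (hf : Differentiable ℝ f)
    (hb : ∀ x, ‖x‖ ≤ R → ‖fderiv ℝ f x‖ ≤ C) (x y : E) (hx : ‖x‖ ≤ R) (hy : ‖y‖ ≤ R) :
    ‖f x - f y‖ ≤ C * ‖x - y‖ := by
  have hconv : Convex ℝ (Metric.closedBall (0 : E) R) := convex_closedBall _ _
  refine hconv.norm_image_sub_le_of_norm_fderiv_le (fun z _ => hf z) (fun z hz => ?_)
    (by simpa using hy) (by simpa using hx)
  exact hb z (by simpa using hz)

/-- **Arzela-Ascoli, C^1 version.** -/
theorem exists_subseq_C1 (f : ℕ → E → F) (hf : ∀ n, ContDiff ℝ 1 (f n)) (C M : ℝ)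
    (h0 : ∀ n, ‖f n 0‖ ≤ C) (h1 : ∀ n, ‖fderiv ℝ (f n) 0‖ ≤ C)
    (hL : ∀ n x y, ‖fderiv ℝ (f n) x - fderiv ℝ (f n) y‖ ≤ M * ‖x - y‖) :
    ∃ (s : ℕ → ℕ) (g : E → F), StrictMono s ∧ ContDiff ℝ 1 g ∧
      TendstoLocallyUniformly (fun n => f (s n)) g atTop ∧
      TendstoLocallyUniformly (fun n => fderiv ℝ (f (s n))) (fderiv ℝ g) atTop ∧
      (∀ x, Tendsto (fun n => f (s n) x) atTop (𝓝 (g x))) ∧
      (∀ x, Tendsto (fun n => fderiv ℝ (f (s n)) x) atTop (𝓝 (fderiv ℝ g x))) ∧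
      (∀ x y, ‖fderiv ℝ g x - fderiv ℝ g y‖ ≤ M * ‖x - y‖) := by
  have hM : ∀ n x, ‖fderiv ℝ (f n) x‖ ≤ C + M * ‖x‖ := by
    intro n x
    have a := hL n x 0
    have b : ‖fderiv ℝ (f n) x‖ ≤ ‖fderiv ℝ (f n) x - fderiv ℝ (f n) 0‖ + ‖fderiv ℝ (f n) 0‖ :=
      norm_le_norm_sub_add _ _
    rw [sub_zero] at a
    linarith [h1 n]
  have hMR : ∀ (R : ℕ) n x, ‖x‖ ≤ R → ‖fderiv ℝ (f n) x‖ ≤ C + |M| * R := by
    intro R n x hx
    refine (hM n x).trans ?_
    have a1 : M * ‖x‖ ≤ |M| * ‖x‖ := mul_le_mul_of_nonneg_right (le_abs_self _) (norm_nonneg _)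
    have a2 : |M| * ‖x‖ ≤ |M| * R := mul_le_mul_of_nonneg_left hx (abs_nonneg _)
    linarith
  have hd : ∀ n, Differentiable ℝ (f n) := fun n => (hf n).differentiable one_ne_zero
  let F1 : ℕ → E → F × (E →L[ℝ] F) := fun n x => (f n x, fderiv ℝ (f n) x)
  obtain ⟨s, g, hs, hgc, hlu, hpt⟩ := exists_subseq_C0 F1 (fun R => by
      refine ⟨max (C + (C + |M| * R) * R) (C + |M| * R), fun n x hx => ?_⟩
      have a0 : ‖f n x - f n 0‖ ≤ (C + |M| * R) * ‖x - 0‖ :=
        lipschitz_of_fderiv_le (hd n) (fun z hz => hMR R n z hz) x 0 hx (by simp)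
      have a1 : ‖f n x‖ ≤ ‖f n x - f n 0‖ + ‖f n 0‖ := norm_le_norm_sub_add _ _
      have hnn : 0 ≤ C + |M| * R := (norm_nonneg _).trans (hMR R n x hx)
      have a2 : (C + |M| * R) * ‖x - 0‖ ≤ (C + |M| * R) * R := by
        rw [sub_zero]
        exact mul_le_mul_of_nonneg_left hx hnn
      refine norm_prod_le_iff.2 ⟨?_, ?_⟩
      · refine le_trans ?_ (le_max_left _ _)
        linarith [h0 n]
      · exact (hMR R n x hx).trans (le_max_right _ _)) (fun R => by
      refine ⟨max (C + |M| * R) M, fun n x y hx hy => ?_⟩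
      refine norm_prod_le_iff.2 ⟨?_, ?_⟩
      · exact (lipschitz_of_fderiv_le (hd n) (fun z hz => hMR R n z hz) x y hx hy).trans
          (mul_le_mul_of_nonneg_right (le_max_left _ _) (norm_nonneg _))
      · exact (hL n x y).trans
          (mul_le_mul_of_nonneg_right (le_max_right _ _) (norm_nonneg _)))
  have l1 : TendstoLocallyUniformly (fun n => f (s n)) (fun x => (g x).1) atTop :=
    uniformContinuous_fst.comp_tendstoLocallyUniformly hlu
  have l2 : TendstoLocallyUniformly (fun n => fderiv ℝ (f (s n))) (fun x => (g x).2) atTop :=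
    uniformContinuous_snd.comp_tendstoLocallyUniformly hlu
  have p1 : ∀ x, Tendsto (fun n => f (s n) x) atTop (𝓝 (g x).1) := fun x => tlu_tendsto l1 x
  have p2 : ∀ x, Tendsto (fun n => fderiv ℝ (f (s n)) x) atTop (𝓝 (g x).2) :=
    fun x => tlu_tendsto l2 x
  have hD : ∀ x, HasFDerivAt (fun x => (g x).1) ((g x).2) x := by
    intro x
    refine hasFDerivAt_of_tendstoLocallyUniformlyOn (l := atTop) isOpen_univ
      (tendstoLocallyUniformlyOn_univ.2 l2) (fun n z _ => (hd (s n) z).hasFDerivAt)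
      (fun z _ => p1 z) (mem_univ x)
  have hfd : fderiv ℝ (fun x => (g x).1) = fun x => (g x).2 := funext fun x => (hD x).fderiv
  refine ⟨s, fun x => (g x).1, hs, ?_, l1, ?_, p1, ?_, ?_⟩
  · rw [contDiff_one_iff_fderiv]
    exact ⟨fun x => (hD x).differentiableAt, by rw [hfd]; exact hgc.snd⟩
  · rw [hfd]; exact l2
  · intro x; rw [hfd]; exact p2 x
  · intro x y
    rw [hfd]
    exact le_of_tendsto' (((p2 x).sub (p2 y)).norm) (fun n => hL (s n) x y)

/-- **Arzela-Ascoli, C^2 version.** -/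
theorem exists_subseq_C2 (f : ℕ → E → F) (hf : ∀ n, ContDiff ℝ 2 (f n)) (C M : ℝ)
    (h0 : ∀ n, ‖f n 0‖ ≤ C) (h1 : ∀ n, ‖fderiv ℝ (f n) 0‖ ≤ C)
    (h2 : ∀ n x, ‖fderiv ℝ (fderiv ℝ (f n)) x‖ ≤ C)
    (hL : ∀ n x y, ‖fderiv ℝ (fderiv ℝ (f n)) x - fderiv ℝ (fderiv ℝ (f n)) y‖ ≤ M * ‖x - y‖) :
    ∃ (s : ℕ → ℕ) (g : E → F), StrictMono s ∧ ContDiff ℝ 2 g ∧
      TendstoLocallyUniformly (fun n => f (s n)) g atTop ∧
      TendstoLocallyUniformly (fun n => fderiv ℝ (f (s n))) (fderiv ℝ g) atTop ∧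
      TendstoLocallyUniformly (fun n => fderiv ℝ (fderiv ℝ (f (s n)))) (fderiv ℝ (fderiv ℝ g))
        atTop ∧
      (∀ x, Tendsto (fun n => f (s n) x) atTop (𝓝 (g x))) ∧
      (∀ x, Tendsto (fun n => fderiv ℝ (f (s n)) x) atTop (𝓝 (fderiv ℝ g x))) ∧
      (∀ x, Tendsto (fun n => fderiv ℝ (fderiv ℝ (f (s n))) x) atTop
        (𝓝 (fderiv ℝ (fderiv ℝ g) x))) ∧
      (∀ x, ‖fderiv ℝ (fderiv ℝ g) x‖ ≤ C) ∧
      (∀ x y, ‖fderiv ℝ (fderiv ℝ g) x - fderiv ℝ (fderiv ℝ g) y‖ ≤ M * ‖x - y‖) := by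
  have hd : ∀ n, Differentiable ℝ (f n) := fun n => (hf n).differentiable two_ne_zero
  have hf1 : ∀ n, ContDiff ℝ 1 (fderiv ℝ (f n)) := fun n =>
    (hf n).fderiv_right (m := 1) (by norm_num)
  have hd1 : ∀ n, Differentiable ℝ (fderiv ℝ (f n)) := fun n =>
    (hf1 n).differentiable one_ne_zero
  have hLip1 : ∀ n x y, ‖fderiv ℝ (f n) x - fderiv ℝ (f n) y‖ ≤ C * ‖x - y‖ := by
    intro n x y
    exact lipschitz_of_fderiv_le (R := max ‖x‖ ‖y‖) (hd1 n) (fun z _ => h2 n z) x y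
      (le_max_left _ _) (le_max_right _ _)
  -- first the derivatives
  obtain ⟨s, g1, hs, hg1, l1, l2, p1, p2, hLg⟩ := exists_subseq_C1 (fun n => fderiv ℝ (f n)) hf1
    C M h1 (fun n => h2 n 0) hL
  obtain ⟨t, g, ht, hg, m1, m2, q1, q2, -⟩ := exists_subseq_C1 (fun n => f (s n))
    (fun n => (hf (s n)).of_le (by norm_num)) C C (fun n => h0 (s n)) (fun n => h1 (s n))
    (fun n x y => hLip1 (s n) x y)
  have htt : Tendsto t atTop atTop := ht.tendsto_atTop
  have hgg : fderiv ℝ g = g1 := by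
    funext x
    have a1 := q2 x
    have a2 : Tendsto (fun n => fderiv ℝ (f (s (t n))) x) atTop (𝓝 (g1 x)) :=
      (p1 x).comp htt
    exact tendsto_nhds_unique a1 a2
  have hsub : ∀ {G : Type _} [NormedAddCommGroup G] (u : ℕ → E → G) (v : E → G),
      TendstoLocallyUniformly u v atTop → TendstoLocallyUniformly (fun n => u (t n)) v atTop := by
    intro G _ u v huv w hw x
    obtain ⟨A, hA, hev⟩ := huv w hw x
    exact ⟨A, hA, htt.eventually hev⟩
  have pp2 : ∀ x, Tendsto (fun n => fderiv ℝ (fderiv ℝ (f (s (t n)))) x) atTop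
      (𝓝 (fderiv ℝ g1 x)) := fun x => (p2 x).comp htt
  refine ⟨fun n => s (t n), g, hs.comp ht, ?_, m1, m2, ?_, q1, q2, ?_, ?_, ?_⟩
  · have e : (2 : WithTop ℕ∞) = 1 + 1 := by norm_num
    rw [e, contDiff_succ_iff_fderiv]
    refine ⟨hg.differentiable one_ne_zero, by simp, ?_⟩
    rw [hgg]
    exact hg1
  · rw [hgg]
    exact hsub _ _ l2
  · intro x
    rw [hgg]
    exact pp2 x
  · intro x
    rw [hgg]
    have hn : Tendsto (fun n => ‖fderiv ℝ (fderiv ℝ (f (s (t n)))) x‖) atTop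
        (𝓝 ‖fderiv ℝ g1 x‖) := by
      have h3 := pp2 x
      have h4 := Filter.Tendsto.norm (E := E →L[ℝ] E →L[ℝ] F) h3
      exact h4
    exact le_of_tendsto' hn (fun n => h2 _ x)
  · intro x y
    rw [hgg]
    exact hLg x y

end AA2

end Vale.Agent.P227.M.Tool
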